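import Vale.Agent.P365.T1a.Mix
import Vale.Agent.P365.Flow.Semi

set_option linter.all false

/-!
# P365-T2 (helper722): second differences of the label law; the law kicked by Cauchy noise.
-/

namespace P365T2.H722

open MeasureTheory ProbabilityTheory Complex P365L P365T1 P365T1.Bump Set
open scoped ENNReal NNReal Real

/-! ### the bump -/

theorem phi_conv (x y : ℝ) :
    0 ≤ (max y 0) ^ 2 - (max x 0) ^ 2 - 2 * max x 0 * (y - x) ∧
      (max y 0) ^ 2 - (max x 0) ^ 2 - 2 * max x 0 * (y - x) ≤ (y - x) ^ 2 := by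
  rcases le_total x 0 with hx | hx <;> rcases le_total y 0 with hy | hy
  · rw [max_eq_right hx, max_eq_right hy]
    constructor <;> nlinarith [sq_nonneg (y - x)]
  · rw [max_eq_right hx, max_eq_left hy]
    constructor <;> nlinarith [sq_nonneg (y - x), sq_nonneg y, mul_nonneg hy (neg_nonneg.2 hx), sq_nonneg x]
  · rw [max_eq_left hx, max_eq_right hy]
    constructor <;> nlinarith [sq_nonneg (y - x), sq_nonneg y, mul_nonneg hx (neg_nonneg.2 hy), sq_nonneg x]
  · rw [max_eq_left hx, max_eq_left hy]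
    constructor <;> nlinarith [sq_nonneg (y - x)]

/-- `(1-u^2)_+^2` -/
noncomputable def b0 (u : ℝ) : ℝ := (max (1 - u ^ 2) 0) ^ 2

theorem b0_nonneg (u : ℝ) : 0 ≤ b0 u := sq_nonneg _

theorem b0_le (u : ℝ) : b0 u ≤ 1 := by
  have h1 : max (1 - u ^ 2) 0 ≤ 1 := max_le (by linarith [sq_nonneg u]) zero_le_one
  have h2 : 0 ≤ max (1 - u ^ 2) 0 := le_max_right _ _
  unfold b0
  exact pow_le_one₀ h2 h1

theorem b0_eq_zero {u : ℝ} (h : 1 ≤ |u|) : b0 u = 0 := by
  unfold b0
  have h1 : 1 ≤ u ^ 2 := by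
    rw [← sq_abs]
    nlinarith
  rw [max_eq_right (by linarith)]
  ring

theorem b0_d2 (u t : ℝ) : |b0 (u + t) + b0 (u - t) - 2 * b0 u| ≤ 74 * t ^ 2 := by
  have n1 := b0_nonneg (u + t)
  have n2 := b0_nonneg (u - t)
  have n3 := b0_nonneg u
  have m1 := b0_le (u + t)
  have m2 := b0_le (u - t)
  have m3 := b0_le u
  rcases le_total 1 |t| with ht | ht
  · have h1 : 1 ≤ t ^ 2 := by
      rw [← sq_abs]
      nlinarith
    rw [abs_le]
    constructor <;> linarith
  rcases le_total 3 |u| with hu | hu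
  · have h1 : 1 ≤ |u + t| := by
      have := abs_sub_abs_le_abs_sub u (-t)
      rw [abs_neg, sub_neg_eq_add] at this
      linarith
    have h2 : 1 ≤ |u - t| := by
      have := abs_sub_abs_le_abs_sub u t
      linarith
    rw [b0_eq_zero h1, b0_eq_zero h2, b0_eq_zero (by linarith)]
    simp
    positivity
  · have c1 := phi_conv (1 - u ^ 2) (1 - (u + t) ^ 2)
    have c2 := phi_conv (1 - u ^ 2) (1 - (u - t) ^ 2)
    have h1 : max (1 - u ^ 2) 0 ≤ 1 := max_le (by linarith [sq_nonneg u]) zero_le_one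
    have h2 : 0 ≤ max (1 - u ^ 2) 0 := le_max_right _ _
    have hu2 : u ^ 2 ≤ 9 := by
      rw [← sq_abs]
      nlinarith [abs_nonneg u]
    have ht2 : t ^ 2 ≤ 1 := by
      rw [← sq_abs]
      nlinarith [abs_nonneg t]
    have ht0 := sq_nonneg t
    have hmt : max (1 - u ^ 2) 0 * t ^ 2 ≤ t ^ 2 := by nlinarith
    have hmt0 : 0 ≤ max (1 - u ^ 2) 0 * t ^ 2 := by positivity
    have hut : u ^ 2 * t ^ 2 ≤ 9 * t ^ 2 := by nlinarith
    have htt : t ^ 2 * t ^ 2 ≤ t ^ 2 := by nlinarith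
    unfold b0
    rw [abs_le]
    constructor
    · nlinarith [c1.1, c2.1]
    · nlinarith [c1.2, c2.2]

theorem b0_d1 (u t : ℝ) : |b0 (u + t) - b0 u| ≤ 63 * |t| := by
  have n1 := b0_nonneg (u + t)
  have n3 := b0_nonneg u
  have m1 := b0_le (u + t)
  have m3 := b0_le u
  have ht00 := abs_nonneg t
  rcases le_total 1 |t| with ht | ht
  · rw [abs_le]
    constructor <;> linarith
  rcases le_total 3 |u| with hu | hu
  · have h1 : 1 ≤ |u + t| := by
      have := abs_sub_abs_le_abs_sub u (-t)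
      rw [abs_neg, sub_neg_eq_add] at this
      linarith
    rw [b0_eq_zero h1, b0_eq_zero (by linarith)]
    simp
  · have c1 := phi_conv (1 - u ^ 2) (1 - (u + t) ^ 2)
    have h1 : max (1 - u ^ 2) 0 ≤ 1 := max_le (by linarith [sq_nonneg u]) zero_le_one
    have h2 : 0 ≤ max (1 - u ^ 2) 0 := le_max_right _ _
    set D : ℝ := (1 - (u + t) ^ 2) - (1 - u ^ 2) with hD
    have hDle : |D| ≤ 7 * |t| := by
      have e : D = -(t * (2 * u + t)) := by rw [hD]; ring
      rw [e, abs_neg, abs_mul]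
      have h3 : |2 * u + t| ≤ 7 := by
        refine (abs_add_le _ _).trans ?_
        rw [abs_mul, abs_two]
        linarith
      nlinarith
    have hD2 : D ^ 2 ≤ 49 * |t| := by
      rw [← sq_abs]
      nlinarith [abs_nonneg D]
    have hmD : |2 * max (1 - u ^ 2) 0 * D| ≤ 14 * |t| := by
      rw [abs_mul, abs_of_nonneg (by positivity)]
      nlinarith [abs_nonneg D]
    rw [abs_le] at hmD
    unfold b0
    rw [abs_le]
    constructor
    · nlinarith [c1.1]
    · nlinarith [c1.2]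

theorem rhoB_eq_b0 (c l v : ℝ) : rhoB c l v = 15 / (16 * l) * b0 ((v - c) / l) := rfl

theorem rhoB_d2 {l : ℝ} (hl : 0 < l) (c v t : ℝ) :
    |rhoB c l (v + t) + rhoB c l (v - t) - 2 * rhoB c l v| ≤ 70 / l ^ 3 * t ^ 2 := by
  rw [rhoB_eq_b0, rhoB_eq_b0, rhoB_eq_b0]
  have e1 : (v + t - c) / l = (v - c) / l + t / l := by ring
  have e2 : (v - t - c) / l = (v - c) / l - t / l := by ring
  have h := b0_d2 ((v - c) / l) (t / l)
  rw [e1, e2]
  have e3 : 15 / (16 * l) * b0 ((v - c) / l + t / l) + 15 / (16 * l) * b0 ((v - c) / l - t / l) -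
      2 * (15 / (16 * l) * b0 ((v - c) / l)) = 15 / (16 * l) *
        (b0 ((v - c) / l + t / l) + b0 ((v - c) / l - t / l) - 2 * b0 ((v - c) / l)) := by ring
  rw [e3, abs_mul, abs_of_pos (by positivity)]
  calc 15 / (16 * l) * |b0 ((v - c) / l + t / l) + b0 ((v - c) / l - t / l) - 2 * b0 ((v - c) / l)|
      ≤ 15 / (16 * l) * (74 * (t / l) ^ 2) := by gcongr
    _ = (15 * 74 / 16) / l ^ 3 * t ^ 2 := by field_simp
    _ ≤ 70 / l ^ 3 * t ^ 2 := by gcongr; norm_num

theorem rhoB_d1 {l : ℝ} (hl : 0 < l) (c v t : ℝ) :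
    |rhoB c l (v + t) - rhoB c l v| ≤ 60 / l ^ 2 * |t| := by
  rw [rhoB_eq_b0, rhoB_eq_b0]
  have e1 : (v + t - c) / l = (v - c) / l + t / l := by ring
  have h := b0_d1 ((v - c) / l) (t / l)
  rw [e1, ← mul_sub, abs_mul, abs_of_pos (by positivity)]
  rw [abs_div, abs_of_pos hl] at h
  calc 15 / (16 * l) * |b0 ((v - c) / l + t / l) - b0 ((v - c) / l)|
      ≤ 15 / (16 * l) * (63 * (|t| / l)) := by gcongr
    _ = (15 * 63 / 16) / l ^ 2 * |t| := by field_simp
    _ ≤ 60 / l ^ 2 * |t| := by gcongr; norm_num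

/-! ### the smooth law -/

theorem muc_real {lam l : ℝ} (h : l < lam) : (muc lam l).real univ = 2 * (lam - l) := by
  rw [muc, measureReal_restrict_apply MeasurableSet.univ, univ_inter,
    Real.volume_real_Icc_of_le (by linarith)]
  ring

theorem abs_avg_le {lam l : ℝ} (h : l < lam) {g : ℝ → ℝ} {K : ℝ} (hK : ∀ c, |g c| ≤ K) :
    |(2 * (lam - l))⁻¹ * ∫ c, g c ∂(muc lam l)| ≤ K := by
  have h1 := norm_integral_le_of_norm_le_const (μ := muc lam l) (f := g) (C := K)
    (Filter.Eventually.of_forall fun c => by rw [Real.norm_eq_abs]; exact hK c)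
  rw [muc_real h, Real.norm_eq_abs] at h1
  have h2 : 0 < 2 * (lam - l) := by linarith
  rw [abs_mul, abs_of_pos (inv_pos.2 h2), inv_mul_le_iff₀ h2]
  linarith

theorem rhoS_d2 {lam l : ℝ} (hl : 0 < l) (h : l < lam) (v t : ℝ) :
    |rhoS lam l (v + t) + rhoS lam l (v - t) - 2 * rhoS lam l v| ≤ 70 / l ^ 3 * t ^ 2 := by
  have i1 := integrable_rhoB_c (lam := lam) hl (v + t)
  have i2 := integrable_rhoB_c (lam := lam) hl (v - t)
  have i3 := integrable_rhoB_c (lam := lam) hl v
  have e : rhoS lam l (v + t) + rhoS lam l (v - t) - 2 * rhoS lam l v =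
      (2 * (lam - l))⁻¹ * ∫ c, (rhoB c l (v + t) + rhoB c l (v - t) - 2 * rhoB c l v)
        ∂(muc lam l) := by
    rw [integral_sub (f := fun c => rhoB c l (v + t) + rhoB c l (v - t)) (i1.add i2)
      (i3.const_mul 2), integral_add i1 i2, integral_const_mul]
    unfold rhoS
    ring
  rw [e]
  exact abs_avg_le h fun c => rhoB_d2 hl c v t

theorem rhoS_d1 {lam l : ℝ} (hl : 0 < l) (h : l < lam) (v t : ℝ) :
    |rhoS lam l (v + t) - rhoS lam l v| ≤ 60 / l ^ 2 * |t| := by
  have i1 := integrable_rhoB_c (lam := lam) hl (v + t)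
  have i3 := integrable_rhoB_c (lam := lam) hl v
  have e : rhoS lam l (v + t) - rhoS lam l v =
      (2 * (lam - l))⁻¹ * ∫ c, (rhoB c l (v + t) - rhoB c l v) ∂(muc lam l) := by
    rw [integral_sub i1 i3]
    unfold rhoS
    ring
  rw [e]
  exact abs_avg_le h fun c => rhoB_d1 hl c v t

theorem continuous_rhoS {lam l : ℝ} (hl : 0 < l) (h : l < lam) : Continuous (rhoS lam l) := by
  rw [Metric.continuous_iff]
  intro v ε hε
  refine ⟨ε / (60 / l ^ 2 + 1), by positivity, fun w hw => ?_⟩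
  have h1 := rhoS_d1 hl h v (w - v)
  rw [add_sub_cancel] at h1
  rw [Real.dist_eq] at hw ⊢
  have h2 : (60 / l ^ 2) * |w - v| ≤ (60 / l ^ 2 + 1) * |w - v| := by
    have := abs_nonneg (w - v)
    nlinarith
  have h3 : (60 / l ^ 2 + 1) * |w - v| < ε := by
    rw [lt_div_iff₀ (by positivity)] at hw
    linarith
  linarith

theorem rhoS_eq_zero {lam l : ℝ} (hl : 0 < l) (h : l < lam) {v : ℝ} (hv : lam ≤ |v|) :
    rhoS lam l v = 0 := by
  have h1 : ∫ c, rhoB c l v ∂(muc lam l) = 0 := by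
    rw [muc, setIntegral_congr_fun measurableSet_Icc (g := fun _ => (0 : ℝ)) ?_]
    · simp
    · intro c hc
      show rhoB c l v = 0
      rw [rhoB_eq_b0, b0_eq_zero, mul_zero]
      rw [abs_div, abs_of_pos hl, le_div_iff₀ hl, one_mul]
      have hc' : |c| ≤ lam - l := abs_le.2 hc
      have := abs_sub_abs_le_abs_sub v c
      linarith
  rw [rhoS, h1, mul_zero]

theorem nuS_eq_withDensity {lam l : ℝ} (hl : 0 < l) (h : l < lam) :
    nuS lam l = (volume : Measure ℝ).withDensity fun v => ENNReal.ofReal (rhoS lam l v) := by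
  rw [nuS, muv, ← withDensity_indicator measurableSet_Icc]
  congr 1
  funext v
  by_cases hv : v ∈ Icc (-lam) lam
  · rw [indicator_of_mem hv]
  · rw [indicator_of_notMem hv, rhoS_eq_zero hl h, ENNReal.ofReal_zero]
    by_contra hc
    push Not at hc
    rw [abs_lt] at hc
    exact hv ⟨hc.1.le, hc.2.le⟩

theorem integral_rhoS_one {lam l : ℝ} (hl : 0 < l) (h : l < lam) :
    ∫⁻ v, ENNReal.ofReal (rhoS lam l v) = 1 := by
  have h1 := (isProbabilityMeasure_nuS hl h).measure_univ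
  rw [nuS_eq_withDensity hl h, withDensity_apply _ MeasurableSet.univ, Measure.restrict_univ] at h1
  exact h1

end P365T2.H722
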