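import Vale.Agent.P365.T2.H722.LawA

set_option linter.all false

/-!
# P365-T2 (helper722): the law kicked by Cauchy noise, `|P_h ρ - ρ| ≤ C h / (1 + u^2)`.
-/

namespace P365T2.H722

open MeasureTheory ProbabilityTheory Complex P365L P365T1 P365T1.Bump Set
open scoped ENNReal NNReal Real

/-- a smooth density: supported in `[-L, L]`, bounded by `K`, second differences `≤ K t^2` -/
structure Smo (ρ : ℝ → ℝ) (K L : ℝ) : Prop where
  Lpos : 0 < L
  Kpos : 0 < K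
  cont : Continuous ρ
  nonneg : ∀ u, 0 ≤ ρ u
  le : ∀ u, ρ u ≤ K
  supp : ∀ u, L ≤ |u| → ρ u = 0
  d2 : ∀ u t, |ρ (u + t) + ρ (u - t) - 2 * ρ u| ≤ K * t ^ 2
  one : ∫⁻ u, ENNReal.ofReal (ρ u) = 1

theorem smo_rhoS {lam l : ℝ} (hl : 0 < l) (h : l < lam) :
    Smo (rhoS lam l) (max (70 / l ^ 3) (2 * (lam - l))⁻¹) lam where
  Lpos := hl.trans h
  Kpos := lt_max_of_lt_left (by positivity)
  cont := continuous_rhoS hl h
  nonneg := rhoS_nonneg hl h
  le := fun u => (rhoS_le hl h u).trans (le_max_right _ _)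
  supp := fun u hu => rhoS_eq_zero hl h hu
  d2 := fun u t => (rhoS_d2 hl h u t).trans
    (mul_le_mul_of_nonneg_right (le_max_left _ _) (sq_nonneg t))
  one := integral_rhoS_one hl h

variable {ρ : ℝ → ℝ} {K L : ℝ}

theorem Smo.integrable (h : Smo ρ K L) : Integrable ρ := by
  refine ⟨h.cont.aestronglyMeasurable, ?_⟩
  rw [hasFiniteIntegral_iff_ofReal (Filter.Eventually.of_forall h.nonneg), h.one]
  exact ENNReal.one_lt_top

theorem Smo.integral_one (h : Smo ρ K L) : ∫ u, ρ u = 1 := by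
  rw [integral_eq_lintegral_of_nonneg_ae (Filter.Eventually.of_forall h.nonneg)
    h.cont.aestronglyMeasurable, h.one, ENNReal.toReal_one]

/-- the density kicked by Cauchy noise of width `h` -/
noncomputable def PP (h : ℝ) (ρ : ℝ → ℝ) (u : ℝ) : ℝ := ∫ t, ρ (u + h * t) ∂nu

theorem Smo.bd (hρ : Smo ρ K L) (u : ℝ) : |ρ u| ≤ K := by
  rw [abs_of_nonneg (hρ.nonneg u)]
  exact hρ.le u

theorem Smo.integrable_kick (hρ : Smo ρ K L) (h u : ℝ) :
    Integrable (fun t => ρ (u + h * t)) nu :=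
  Integrable.of_bound (hρ.cont.comp (by fun_prop)).aestronglyMeasurable K
    (Filter.Eventually.of_forall fun t => by rw [Real.norm_eq_abs]; exact hρ.bd _)

theorem nu_neg : Measure.map (fun t : ℝ => -t) nu = nu := by
  ext s hs
  have hm : Measurable fun t : ℝ => -t := measurable_neg
  rw [← lintegral_indicator_one hs, lintegral_map (measurable_one.indicator hs) hm,
    ← lintegral_indicator_one hs]
  rw [P365F.nu_lintegral (f := fun t => s.indicator 1 (-t)) ((measurable_one.indicator hs).comp hm),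
    P365F.nu_lintegral (measurable_one.indicator hs)]
  have e := (Measure.measurePreserving_neg (volume : Measure ℝ)).lintegral_comp
    (f := fun t : ℝ => ENNReal.ofReal (π⁻¹ * (t ^ 2 + 1)⁻¹) * s.indicator 1 t)
    (by
      refine Measurable.mul (by fun_prop) (measurable_one.indicator hs))
  rw [← e]
  refine lintegral_congr fun t => ?_
  simp

theorem integral_nu_neg {E : Type*} [NormedAddCommGroup E] [NormedSpace ℝ E] (f : ℝ → E) :
    ∫ t, f (-t) ∂nu = ∫ t, f t ∂nu := by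
  have h1 : MeasurePreserving (fun t : ℝ => -t) nu nu := ⟨measurable_neg, nu_neg⟩
  exact h1.integral_comp (MeasurableEquiv.neg ℝ).measurableEmbedding f

theorem PP_neg (h u : ℝ) : PP h ρ u = ∫ t, ρ (u - h * t) ∂nu := by
  rw [PP, ← integral_nu_neg]
  refine integral_congr_ae (Filter.Eventually.of_forall fun t => ?_)
  show ρ (u + h * -t) = ρ (u - h * t)
  congr 1
  ring

theorem PP_nonneg (hρ : Smo ρ K L) (h u : ℝ) : 0 ≤ PP h ρ u :=
  integral_nonneg fun t => hρ.nonneg _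

/-- the second difference form -/
theorem PP_sub (hρ : Smo ρ K L) (h u : ℝ) :
    2 * (PP h ρ u - ρ u) = ∫ t, (ρ (u + h * t) + ρ (u - h * t) - 2 * ρ u) ∂nu := by
  have i1 := hρ.integrable_kick h u
  have i2 : Integrable (fun t => ρ (u - h * t)) nu := by
    have := hρ.integrable_kick (-h) u
    refine this.congr (Filter.Eventually.of_forall fun t => ?_)
    show ρ (u + -h * t) = ρ (u - h * t)
    congr 1
    ring
  rw [integral_sub (f := fun t => ρ (u + h * t) + ρ (u - h * t)) (i1.add i2)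
    (integrable_const _), integral_add i1 i2, ← PP_neg]
  rw [integral_const, probReal_univ, one_smul]
  unfold PP
  ring

theorem kern_bound {h : ℝ} (hh : 0 < h) (t : ℝ) :
    min (h ^ 2 * t ^ 2) 4 ≤ 8 * (1 + t ^ 2) * (‖(t : ℂ) - (⟨0, 2 / h⟩ : ℂ)‖ ^ 2)⁻¹ := by
  have e : ‖(t : ℂ) - (⟨0, 2 / h⟩ : ℂ)‖ ^ 2 = t ^ 2 + (2 / h) ^ 2 := by
    rw [cau_sq_norm]
    simp
  rw [e]
  have h1 : 0 < t ^ 2 + (2 / h) ^ 2 := by positivity
  rw [← div_eq_mul_inv, le_div_iff₀ h1]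
  have h2 : t ^ 2 + (2 / h) ^ 2 = (h ^ 2 * t ^ 2 + 4) / h ^ 2 := by
    field_simp
    ring
  rw [h2]
  set a := h ^ 2 * t ^ 2 with ha
  have ha0 : 0 ≤ a := by positivity
  have h3 : min a 4 * (a + 4) ≤ 8 * a := by
    rcases le_total a 4 with h4 | h4
    · rw [min_eq_left h4]; nlinarith
    · rw [min_eq_right h4]; nlinarith
  rw [← mul_div_assoc, div_le_iff₀ (by positivity)]
  calc min a 4 * (a + 4) ≤ 8 * a := h3
    _ = 8 * t ^ 2 * h ^ 2 := by rw [ha]; ring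
    _ ≤ 8 * (1 + t ^ 2) * h ^ 2 := by
        have := sq_nonneg h
        nlinarith

/-- uniform bound -/
theorem PP_near (hρ : Smo ρ K L) {h : ℝ} (hh : 0 < h) (u : ℝ) :
    |PP h ρ u - ρ u| ≤ 2 * K * h := by
  have h0 := PP_sub hρ h u
  have hK := hρ.Kpos
  have him : (0 : ℝ) < (⟨0, 2 / h⟩ : ℂ).im := by
    show 0 < 2 / h
    positivity
  have hpt : ∀ t, |ρ (u + h * t) + ρ (u - h * t) - 2 * ρ u| ≤
      8 * K * ((1 + t ^ 2) * (‖(t : ℂ) - (⟨0, 2 / h⟩ : ℂ)‖ ^ 2)⁻¹) := by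
    intro t
    have h1 := hρ.d2 u (h * t)
    have h2 : |ρ (u + h * t) + ρ (u - h * t) - 2 * ρ u| ≤ K * 4 := by
      have a1 := hρ.nonneg (u + h * t)
      have a2 := hρ.nonneg (u - h * t)
      have a3 := hρ.nonneg u
      have b1 := hρ.le (u + h * t)
      have b2 := hρ.le (u - h * t)
      have b3 := hρ.le u
      rw [abs_le]
      constructor <;> linarith
    have h3 : |ρ (u + h * t) + ρ (u - h * t) - 2 * ρ u| ≤ K * min (h ^ 2 * t ^ 2) 4 := by
      rw [mul_min_of_nonneg _ _ hK.le]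
      refine le_min ?_ h2
      rw [mul_pow] at h1
      exact h1
    calc _ ≤ K * min (h ^ 2 * t ^ 2) 4 := h3
      _ ≤ K * (8 * (1 + t ^ 2) * (‖(t : ℂ) - (⟨0, 2 / h⟩ : ℂ)‖ ^ 2)⁻¹) :=
        mul_le_mul_of_nonneg_left (kern_bound hh t) hK.le
      _ = _ := by ring
  have hr : ∀ f : ℝ → ℝ, ∫ t, f t ∂nu = ∫ t, π⁻¹ * (t ^ 2 + 1)⁻¹ * f t := by
    intro f
    have h1 : nu = volume.withDensity (cauchyPDF 0 1) :=
      cauchyMeasure_of_scale_ne_zero 0 one_ne_zero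
    rw [h1, integral_withDensity_eq_integral_toReal_smul (measurable_cauchyPDF 0 1)
      (Filter.Eventually.of_forall fun x => ENNReal.ofReal_lt_top)]
    refine integral_congr_ae (Filter.Eventually.of_forall fun t => ?_)
    simp only [cauchyPDF, ENNReal.toReal_ofReal (cauchyPDF_pos 0 one_ne_zero t).le]
    rw [smul_eq_mul]
    congr 1
    simp only [cauchyPDFReal, NNReal.coe_one, mul_one, sub_zero, one_pow]
  have h1 : ‖∫ t, (ρ (u + h * t) + ρ (u - h * t) - 2 * ρ u) ∂nu‖ ≤ 4 * K * h := by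
    refine (norm_integral_le_integral_norm _).trans ?_
    rw [hr]
    have hint : Integrable fun t : ℝ => (8 * K * π⁻¹) * (‖(t : ℂ) - (⟨0, 2 / h⟩ : ℂ)‖ ^ 2)⁻¹ :=
      (cau_integrable_sq him).const_mul _
    have hle : ∫ t : ℝ, π⁻¹ * (t ^ 2 + 1)⁻¹ * ‖ρ (u + h * t) + ρ (u - h * t) - 2 * ρ u‖ ≤
        ∫ t : ℝ, (8 * K * π⁻¹) * (‖(t : ℂ) - (⟨0, 2 / h⟩ : ℂ)‖ ^ 2)⁻¹ := by
      refine integral_mono_of_nonneg (Filter.Eventually.of_forall fun t => by positivity) hint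
        (Filter.Eventually.of_forall fun t => ?_)
      show π⁻¹ * (t ^ 2 + 1)⁻¹ * ‖ρ (u + h * t) + ρ (u - h * t) - 2 * ρ u‖ ≤ _
      rw [Real.norm_eq_abs]
      calc π⁻¹ * (t ^ 2 + 1)⁻¹ * |ρ (u + h * t) + ρ (u - h * t) - 2 * ρ u|
          ≤ π⁻¹ * (t ^ 2 + 1)⁻¹ *
            (8 * K * ((1 + t ^ 2) * (‖(t : ℂ) - (⟨0, 2 / h⟩ : ℂ)‖ ^ 2)⁻¹)) :=
            mul_le_mul_of_nonneg_left (hpt t) (by positivity)
        _ = (8 * K * π⁻¹) * (‖(t : ℂ) - (⟨0, 2 / h⟩ : ℂ)‖ ^ 2)⁻¹ := by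
            have : t ^ 2 + 1 ≠ 0 := by positivity
            field_simp
            ring
    refine hle.trans (le_of_eq ?_)
    rw [integral_const_mul, cau_integral_sq him]
    have hpi := Real.pi_ne_zero
    show 8 * K * π⁻¹ * (π / (2 / h)) = 4 * K * h
    field_simp
    ring
  rw [← h0, Real.norm_eq_abs, abs_mul, abs_two] at h1
  linarith

/-- kernel form -/
theorem PP_eq {h : ℝ} (hh : 0 < h) (hρ : Smo ρ K L) (u : ℝ) :
    PP h ρ u = ∫ v, ρ v * (π⁻¹ * h * ((v - u) ^ 2 + h ^ 2)⁻¹) := by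
  have h1 := cau_integral fun t => ((ρ (u + h * t) : ℝ) : ℂ)
  have e0 : ((PP h ρ u : ℝ) : ℂ) = ∫ t, ((ρ (u + h * t) : ℝ) : ℂ) ∂nu := by
    rw [PP]
    exact (integral_complex_ofReal).symm
  have e1 : ∫ t : ℝ, ((π⁻¹ * (t ^ 2 + 1)⁻¹ : ℝ) : ℂ) * ((ρ (u + h * t) : ℝ) : ℂ) =
      ((∫ t : ℝ, (π⁻¹ * (t ^ 2 + 1)⁻¹) * ρ (u + h * t) : ℝ) : ℂ) := by
    rw [← integral_complex_ofReal]
    refine integral_congr_ae (Filter.Eventually.of_forall fun t => ?_)
    push_cast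
    rfl
  rw [e1, ← e0] at h1
  have h2 : PP h ρ u = ∫ t : ℝ, (π⁻¹ * (t ^ 2 + 1)⁻¹) * ρ (u + h * t) := by exact_mod_cast h1
  rw [h2]
  set g : ℝ → ℝ := fun v => ρ (u + v) * (π⁻¹ * h * (v ^ 2 + h ^ 2)⁻¹) with hg
  have h3 : ∀ t : ℝ, π⁻¹ * (t ^ 2 + 1)⁻¹ * ρ (u + h * t) = h * g (h * t) := by
    intro t
    rw [hg]
    simp only
    field_simp
  simp only [h3]
  rw [integral_const_mul, Measure.integral_comp_mul_left g h, abs_of_pos (inv_pos.2 hh),
    smul_eq_mul, ← mul_assoc, mul_inv_cancel₀ hh.ne', one_mul]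
  rw [← integral_add_left_eq_self (μ := volume) (fun v => ρ v * (π⁻¹ * h * ((v - u) ^ 2 + h ^ 2)⁻¹)) u]
  refine integral_congr_ae (Filter.Eventually.of_forall fun v => ?_)
  show ρ (u + v) * (π⁻¹ * h * (v ^ 2 + h ^ 2)⁻¹) =
    ρ (u + v) * (π⁻¹ * h * ((u + v - u) ^ 2 + h ^ 2)⁻¹)
  rw [add_sub_cancel_left]

theorem PP_far (hρ : Smo ρ K L) {h : ℝ} (hh : 0 < h) {u : ℝ} (hu : 2 * L ≤ |u|) :
    PP h ρ u ≤ 4 * π⁻¹ * h / u ^ 2 := by
  have hL := hρ.Lpos
  have hu0 : 0 < |u| := by linarith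
  have hu2 : 0 < u ^ 2 := by rw [← sq_abs]; positivity
  rw [PP_eq hh hρ]
  have hle : ∫ v, ρ v * (π⁻¹ * h * ((v - u) ^ 2 + h ^ 2)⁻¹) ≤ ∫ v, ρ v * (4 * π⁻¹ * h / u ^ 2) := by
    refine integral_mono_of_nonneg (Filter.Eventually.of_forall fun v => ?_)
      (hρ.integrable.mul_const _) (Filter.Eventually.of_forall fun v => ?_)
    · exact mul_nonneg (hρ.nonneg v) (by positivity)
    · show ρ v * (π⁻¹ * h * ((v - u) ^ 2 + h ^ 2)⁻¹) ≤ ρ v * (4 * π⁻¹ * h / u ^ 2)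
      rcases le_total L |v| with hv | hv
      · rw [hρ.supp v hv, zero_mul, zero_mul]
      · refine mul_le_mul_of_nonneg_left ?_ (hρ.nonneg v)
        have h1 : |u| / 2 ≤ |v - u| := by
          have := abs_sub_abs_le_abs_sub u v
          rw [abs_sub_comm] at this
          linarith
        have h2 : u ^ 2 / 4 ≤ (v - u) ^ 2 := by
          rw [← sq_abs u, ← sq_abs (v - u)]
          nlinarith [abs_nonneg u]
        have h3 : u ^ 2 / 4 ≤ (v - u) ^ 2 + h ^ 2 := by nlinarith [sq_nonneg h]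
        have h4 : ((v - u) ^ 2 + h ^ 2)⁻¹ ≤ (u ^ 2 / 4)⁻¹ := inv_anti₀ (by positivity) h3
        calc π⁻¹ * h * ((v - u) ^ 2 + h ^ 2)⁻¹ ≤ π⁻¹ * h * (u ^ 2 / 4)⁻¹ := by gcongr
          _ = 4 * π⁻¹ * h / u ^ 2 := by field_simp
  refine hle.trans (le_of_eq ?_)
  rw [integral_mul_const, hρ.integral_one, one_mul]

/-- constant of the law-kick lemma -/
noncomputable def CK (K L : ℝ) : ℝ := 2 * K * (1 + (2 * L + 1) ^ 2) + 3

theorem CK_pos (hK : 0 < K) : 0 < CK K L := by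
  unfold CK
  positivity

/-- **(L1) the law-kick lemma** -/
theorem PP_sub_le (hρ : Smo ρ K L) {h : ℝ} (hh : 0 < h) (u : ℝ) :
    |PP h ρ u - ρ u| ≤ CK K L * h / (1 + u ^ 2) := by
  have hL := hρ.Lpos
  have hK := hρ.Kpos
  rw [le_div_iff₀ (by positivity)]
  rcases le_total |u| (2 * L + 1) with hu | hu
  · have h1 := PP_near hρ hh u
    have h2 : u ^ 2 ≤ (2 * L + 1) ^ 2 := by
      rw [← sq_abs]
      exact pow_le_pow_left₀ (abs_nonneg u) hu 2
    calc |PP h ρ u - ρ u| * (1 + u ^ 2) ≤ 2 * K * h * (1 + (2 * L + 1) ^ 2) := by gcongr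
      _ ≤ CK K L * h := by unfold CK; nlinarith
  · have hu1 : 1 ≤ |u| := by linarith
    have hu2 : 1 ≤ u ^ 2 := by rw [← sq_abs]; nlinarith
    have h1 := PP_far hρ hh (u := u) (by linarith)
    have h2 := hρ.supp u (by linarith)
    rw [h2, sub_zero, abs_of_nonneg (PP_nonneg hρ h u)]
    have hpi : π⁻¹ ≤ 3⁻¹ := inv_anti₀ (by norm_num) Real.pi_gt_three.le
    have hpi0 : 0 < π⁻¹ := inv_pos.2 Real.pi_pos
    calc PP h ρ u * (1 + u ^ 2) ≤ (4 * π⁻¹ * h / u ^ 2) * (2 * u ^ 2) := by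
          refine mul_le_mul h1 (by linarith) (by positivity) (by positivity)
      _ = 8 * π⁻¹ * h := by
          have hu0 : u ^ 2 ≠ 0 := by positivity
          generalize u ^ 2 = w at *
          field_simp
          norm_num
      _ ≤ 8 * 3⁻¹ * h := by gcongr
      _ ≤ 3 * h := by nlinarith
      _ ≤ CK K L * h := by
          unfold CK
          have : 0 ≤ 2 * K * (1 + (2 * L + 1) ^ 2) * h := by positivity
          nlinarith

end P365T2.H722
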